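import Vale.Agent.Lib.P361.Final

namespace Vale.Agent.Results.P361.A_bloch_lower

open Vale.Agent.Lib.P361

/-- For spin `S = d/2`, `d ≥ 1`: the pressure has a right derivative at `h = 0`, and
`liminf_{β → ∞} β^{3/2} (S - m_S(β)) ≥ ζ(3/2) / (8 π^{3/2} S^{3/2})`. -/
theorem result (d : ℕ) (hd : 0 < d) :
    (∀ β : ℝ, 0 < β → DifferentiableWithinAt ℝ (pressure d β) (Set.Ioi 0) 0) ∧
    ∀ ε : ℝ, 0 < ε → ∃ β₀ : ℝ, ∀ β : ℝ, β₀ ≤ β →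
      (riemannZeta (3 / 2)).re / (8 * Real.pi ^ ((3 : ℝ) / 2) * ((d : ℝ) / 2) ^ ((3 : ℝ) / 2)) - ε
        ≤ β ^ ((3 : ℝ) / 2) * ((d : ℝ) / 2 - spontaneousMagnetization d β) :=
  ⟨fun β hβ => pressure_rightDiff d β hβ, fun ε hε => bloch_lower d hd ε hε⟩

end Vale.Agent.Results.P361.A_bloch_lower
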